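import Vale.Agent.P062.Snaky.Symm

/-!
Checker for certificates of forcing positions, with cells of a 13 x 13 window stored as bits.
-/

namespace Vale.Agent.P062.Snaky

/-- Index `i` of the window stands for this cell; the map is injective on all naturals. -/
def cellOf (i : ℕ) : Cell := (((i % 13 : ℕ) : ℤ) - 8, ((i / 13 : ℕ) : ℤ) - 6)

theorem cellOf_injective : Function.Injective cellOf := by
  intro i j h
  simp only [cellOf, Prod.mk.injEq] at h
  omega

/-- The cells of a bit mask. -/
def InMask (c : ℕ) (p : Cell) : Prop := ∃ i, c.testBit i = true ∧ cellOf i = p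

theorem inMask_cellOf {c i : ℕ} : InMask c (cellOf i) ↔ c.testBit i = true :=
  ⟨fun ⟨_, hj, e⟩ => cellOf_injective e ▸ hj, fun h => ⟨i, h, rfl⟩⟩

inductive Tree (α : Type) : Type
  | leaf (v : α) : Tree α
  | node (mid : ℕ) (l r : Tree α) : Tree α

def Tree.get {α : Type} : Tree α → ℕ → α
  | .leaf v, _ => v
  | .node mid l r, i => cond (Nat.blt i mid) (l.get i) (r.get i)

def Tree.every {α : Type} (f : α → Bool) : Tree α → Bool
  | .leaf v => f v
  | .node _ l r => l.every f && r.every f

theorem Tree.every_get {α : Type} {f : α → Bool} :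
    ∀ {t : Tree α}, t.every f = true → ∀ i, f (t.get i) = true
  | .leaf _, h, _ => h
  | .node mid l r, h, i => by
    simp only [Tree.every, Bool.and_eq_true] at h
    simp only [Tree.get]
    cases Nat.blt i mid
    · exact Tree.every_get h.2 i
    · exact Tree.every_get h.1 i

/-- A copy of Snaky inside the window: its mask and the motion producing it. -/
structure CopyData : Type where
  mask : ℕ
  sw : Bool
  a : Bool
  b : Bool
  tx : ℤ
  ty : ℤ

def snakyList : List Cell := [(0, 0), (1, 0), (2, 0), (3, 0), (3, 1), (4, 1)]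

def CopyData.point (d : CopyData) (p : Cell) : Cell :=
  (d.tx + (symFun d.sw d.a d.b p).1, d.ty + (symFun d.sw d.a d.b p).2)

def idxOf (q : Cell) : ℕ := (q.1 + 8).toNat + 13 * (q.2 + 6).toNat

def copyCheck (d : CopyData) : Bool :=
  (snakyList.all fun p => decide (cellOf (idxOf (d.point p)) = d.point p)) &&
    Nat.beq d.mask (snakyList.foldl (fun acc p => acc ||| 2 ^ idxOf (d.point p)) 0)

def low256 : ℕ := 115792089237316195423570985008687907853269984665640564039457584007913129639935

/-- The certificate: node masks, node edges (both in chunks of 64 nodes) and the copies used. -/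
structure Cert : Type where
  masks : Tree ℕ
  edges : Tree (List ℕ)
  copies : Tree CopyData

def Cert.needMask (T : Cert) (i : ℕ) : ℕ :=
  (T.masks.get (i / 64) >>> (512 * (i % 64))) &&& low256

def Cert.freeMask (T : Cert) (i : ℕ) : ℕ :=
  (T.masks.get (i / 64) >>> (512 * (i % 64) + 256)) &&& low256

def Cert.childNeed (T : Cert) (code : ℕ) : ℕ :=
  cond (Nat.beq (code % 2) 1) (T.copies.get (code / 2)).mask (T.needMask (code / 2))

def Cert.childFree (T : Cert) (code : ℕ) : ℕ :=
  cond (Nat.beq (code % 2) 1) 0 (T.freeMask (code / 2))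

def edgeMove (w : ℕ) : ℕ := (w >>> 1) &&& 255

def edgeCode (w : ℕ) : ℕ := w >>> 9

def Cert.edgeCheck (T : Cert) (i c z w : ℕ) : Bool :=
  (Nat.beq (edgeCode w % 2) 1 || Nat.blt (edgeCode w / 2) i) &&
    (Nat.beq (T.childFree (edgeCode w) &&& 2 ^ edgeMove w) 0 &&
      (Nat.beq (z &&& (T.childFree (edgeCode w) ||| 2 ^ edgeMove w))
          (T.childFree (edgeCode w) ||| 2 ^ edgeMove w) &&
        Nat.beq ((c ||| 2 ^ edgeMove w) &&& T.childNeed (edgeCode w))
          (T.childNeed (edgeCode w))))

def Cert.meet (T : Cert) (z : ℕ) (ws : List ℕ) : ℕ :=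
  ws.foldl (fun acc w => acc &&& (T.childFree (edgeCode w) ||| 2 ^ edgeMove w)) z

def unpack : ℕ → ℕ → List ℕ
  | 0, _ => []
  | f + 1, w => cond (Nat.beq w 0) [] ((w &&& 4294967295) :: unpack f (w >>> 32))

def Cert.nodeCheck (T : Cert) (i packed : ℕ) : Bool :=
  match unpack 256 packed with
  | [] => false
  | w :: ws =>
    (w :: ws).all (T.edgeCheck i (T.needMask i) (T.freeMask i)) &&
      Nat.beq (T.meet (T.freeMask i) (w :: ws)) 0

def Cert.listCheck (T : Cert) : ℕ → List ℕ → Bool
  | _, [] => true
  | i, x :: xs => T.nodeCheck i x && T.listCheck (i + 1) xs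

/-- Checks the chunks `q, q + 1, …, q + r - 1`; every chunk holds exactly 64 nodes. -/
def Cert.rangeCheck (T : Cert) : ℕ → ℕ → Bool
  | _, 0 => true
  | q, r + 1 =>
    (Nat.beq (T.edges.get q).length 64 && T.listCheck (64 * q) (T.edges.get q)) &&
      T.rangeCheck (q + 1) r

theorem copyCheck_sound {d : CopyData} (h : copyCheck d = true) :
    IsCopy (snaky.image d.point) ∧ ∀ p ∈ snaky.image d.point, InMask d.mask p := by
  simp only [copyCheck, Bool.and_eq_true, List.all_eq_true, decide_eq_true_eq] at h
  obtain ⟨h1, h2⟩ := h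
  constructor
  · refine ⟨(d.tx, d.ty), if d.sw then sgn d.a else sgn d.a, sgn d.b, ?_, sgn_cases _, ?_⟩
    · split <;> exact sgn_cases _
    · cases hsw : d.sw
      · left
        apply Finset.image_congr
        intro p _
        simp [CopyData.point, symFun, hsw]
      · right
        apply Finset.image_congr
        intro p _
        simp [CopyData.point, symFun, hsw]
  · intro p hp
    obtain ⟨s, hs, rfl⟩ := Finset.mem_image.mp hp
    have hs' : s ∈ snakyList := by
      simp only [snaky, snakyList, Finset.mem_insert, Finset.mem_singleton, List.mem_cons,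
        List.not_mem_nil, or_false] at hs ⊢
      exact hs
    refine ⟨idxOf (d.point s), ?_, h1 s hs'⟩
    rw [Nat.eq_of_beq_eq_true h2]
    generalize snakyList = L at hs' ⊢
    suffices ∀ acc, (acc.testBit (idxOf (d.point s)) = true ∨ s ∈ L) →
        (L.foldl (fun acc p => acc ||| 2 ^ idxOf (d.point p)) acc).testBit
          (idxOf (d.point s)) = true from this 0 (Or.inr hs')
    clear hs' hs
    induction L with
    | nil => intro acc h; simpa using h
    | cons x xs ih =>
      intro acc h
      rw [List.foldl_cons]
      apply ih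
      rcases h with h | h
      · left; simp [Nat.testBit_or, h]
      · rcases List.mem_cons.mp h with rfl | h
        · left; simp [Nat.testBit_or]
        · right; exact h

theorem Cert.meet_testBit (T : Cert) (j : ℕ) : ∀ (ws : List ℕ) (z : ℕ),
    z.testBit j = true →
    (∀ w ∈ ws, (T.childFree (edgeCode w) ||| 2 ^ edgeMove w).testBit j = true) →
    (T.meet z ws).testBit j = true
  | [], _, hz, _ => hz
  | w :: ws, z, hz, h => by
    have := Cert.meet_testBit T j ws (z &&& (T.childFree (edgeCode w) ||| 2 ^ edgeMove w))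
      (by simp [Nat.testBit_and, hz, h w (List.mem_cons_self ..)])
      (fun x hx => h x (List.mem_cons_of_mem _ hx))
    exact this

/-- What a node of the certificate promises. -/
def Cert.NodeSound (T : Cert) (i : ℕ) : Prop :=
  ∀ M B : Finset Cell, (∀ p, InMask (T.needMask i) p → p ∈ M) →
    (∀ p, InMask (T.freeMask i) p → p ∉ M ∧ p ∉ B) → ForceN (i + 1) M B

theorem testBit_of_and_eq {a b j : ℕ} (h : a &&& b = b) (hb : b.testBit j = true) :
    a.testBit j = true := by
  rw [← h, Nat.testBit_and, Bool.and_eq_true] at hb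
  exact hb.1

theorem Cert.nodeCheck_sound (T : Cert) (hcopy : T.copies.every copyCheck = true) (i packed : ℕ)
    (h : T.nodeCheck i packed = true) (ih : ∀ j < i, T.NodeSound j) : T.NodeSound i := by
  unfold Cert.nodeCheck at h
  split at h
  · simp at h
  rename_i w0 ws0 _
  simp only [Bool.and_eq_true, List.all_eq_true] at h
  obtain ⟨hall, hmeet⟩ := h
  have hmeet0 := Nat.eq_of_beq_eq_true hmeet
  intro M B hM hB
  refine Or.inr fun b hbM hbB => ?_
  have hex : ∃ w ∈ w0 :: ws0,
      ¬ InMask (T.childFree (edgeCode w) ||| 2 ^ edgeMove w) b := by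
    by_contra hne
    push Not at hne
    obtain ⟨j, hj, rfl⟩ := hne w0 (List.mem_cons_self ..)
    have he := hall w0 (List.mem_cons_self ..)
    simp only [Cert.edgeCheck, Bool.and_eq_true] at he
    have hz : (T.freeMask i).testBit j = true :=
      testBit_of_and_eq (Nat.eq_of_beq_eq_true he.2.2.1) hj
    have := T.meet_testBit j (w0 :: ws0) (T.freeMask i) hz
      (fun w hw => inMask_cellOf.mp (hne w hw))
    rw [hmeet0] at this
    simp at this
  obtain ⟨w, hw, hbhit⟩ := hex
  have he := hall w hw
  simp only [Cert.edgeCheck, Bool.and_eq_true, Bool.or_eq_true] at he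
  obtain ⟨hlt, hdis, hsub, hneed⟩ := he
  have hsub := Nat.eq_of_beq_eq_true hsub
  have hneed := Nat.eq_of_beq_eq_true hneed
  have hdis := Nat.eq_of_beq_eq_true hdis
  have hmbit : (T.childFree (edgeCode w) ||| 2 ^ edgeMove w).testBit (edgeMove w) = true := by
    simp [Nat.testBit_or]
  have hmz : InMask (T.freeMask i) (cellOf (edgeMove w)) :=
    inMask_cellOf.mpr (testBit_of_and_eq hsub hmbit)
  have hmb : cellOf (edgeMove w) ≠ b := fun e => hbhit (e ▸ inMask_cellOf.mpr hmbit)
  refine ⟨cellOf (edgeMove w), (hB _ hmz).1, ?_, ?_⟩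
  · intro hmem
    rcases Finset.mem_insert.mp hmem with e | e
    · exact hmb e
    · exact (hB _ hmz).2 e
  have hneedM : ∀ p, InMask (T.childNeed (edgeCode w)) p →
      p ∈ insert (cellOf (edgeMove w)) M := by
    rintro p ⟨j, hj, rfl⟩
    have := testBit_of_and_eq hneed hj
    rw [Nat.testBit_or, Bool.or_eq_true] at this
    rcases this with hc | hc
    · exact Finset.mem_insert_of_mem (hM _ (inMask_cellOf.mpr hc))
    · rw [Nat.testBit_two_pow] at hc
      simp only [decide_eq_true_eq] at hc
      exact Finset.mem_insert.mpr (Or.inl (by rw [hc]))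
  by_cases hodd : edgeCode w % 2 = 1
  · obtain ⟨hcop, hmask⟩ := copyCheck_sound (Tree.every_get hcopy (edgeCode w / 2))
    refine forceN_mono (Nat.zero_le i) ⟨_, hcop, fun p hp => hneedM p ?_⟩
    simpa [Cert.childNeed, hodd] using hmask p hp
  · have hb2 : Nat.beq (edgeCode w % 2) 1 = false := by
      rcases Bool.eq_false_or_eq_true (Nat.beq (edgeCode w % 2) 1) with e | e
      · exact absurd (Nat.eq_of_beq_eq_true e) hodd
      · exact e
    have hj : edgeCode w / 2 < i := by
      rcases hlt with e | e
      · rw [hb2] at e; exact absurd e (by simp)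
      · simpa [Nat.blt_eq] using e
    have hN : T.childNeed (edgeCode w) = T.needMask (edgeCode w / 2) := by
      simp [Cert.childNeed, hb2]
    have hF : T.childFree (edgeCode w) = T.freeMask (edgeCode w / 2) := by
      simp [Cert.childFree, hb2]
    refine forceN_mono (Nat.succ_le_of_lt hj) (ih _ hj _ _ (fun p hp => ?_) (fun p hp => ?_))
    · exact hneedM p (hN ▸ hp)
    · rw [← hF] at hp
      obtain ⟨l, hl, rfl⟩ := hp
      have hlhit : (T.childFree (edgeCode w) ||| 2 ^ edgeMove w).testBit l = true := by
        simp [Nat.testBit_or, hl]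
      have hlz := hB _ (inMask_cellOf.mpr (testBit_of_and_eq hsub hlhit))
      constructor
      · intro hmem
        rcases Finset.mem_insert.mp hmem with e | e
        · have hl' : l = edgeMove w := cellOf_injective e
          have : (T.childFree (edgeCode w) &&& 2 ^ edgeMove w).testBit l = true := by
            subst hl'; simp [Nat.testBit_and, hl]
          rw [hdis] at this
          simp at this
        · exact hlz.1 e
      · intro hmem
        rcases Finset.mem_insert.mp hmem with e | e
        · exact hbhit (e ▸ inMask_cellOf.mpr hlhit)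
        · exact hlz.2 e

theorem Cert.listCheck_get (T : Cert) : ∀ (xs : List ℕ) (i : ℕ), T.listCheck i xs = true →
    ∀ j < xs.length, ∃ packed, T.nodeCheck (i + j) packed = true
  | [], _, _, j, hj => by simp at hj
  | x :: xs, i, h, j, hj => by
    simp only [Cert.listCheck, Bool.and_eq_true] at h
    cases j with
    | zero => exact ⟨x, h.1⟩
    | succ j =>
      obtain ⟨p, hp⟩ := Cert.listCheck_get T xs (i + 1) h.2 j (by simpa using hj)
      exact ⟨p, by rwa [show i + (j + 1) = i + 1 + j by omega]⟩

/-- Every node of the chunks in `[0, q)` passes the node check. -/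
def Cert.CheckedBelow (T : Cert) (q : ℕ) : Prop :=
  ∀ i < 64 * q, ∃ packed, T.nodeCheck i packed = true

theorem Cert.checkedBelow_zero (T : Cert) : T.CheckedBelow 0 := fun i hi => by omega

theorem Cert.checkedBelow_add {T : Cert} {q : ℕ} (hq : T.CheckedBelow q) :
    ∀ {r : ℕ}, T.rangeCheck q r = true → T.CheckedBelow (q + r) := by
  intro r
  induction r generalizing q with
  | zero => intro _; exact hq
  | succ r ih =>
    intro h
    simp only [Cert.rangeCheck, Bool.and_eq_true] at h
    have hq1 : T.CheckedBelow (q + 1) := by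
      intro i hi
      by_cases h' : i < 64 * q
      · exact hq i h'
      · obtain ⟨p, hp⟩ := T.listCheck_get _ _ h.1.2 (i - 64 * q)
          (by rw [Nat.eq_of_beq_eq_true h.1.1]; omega)
        exact ⟨p, by rwa [show i = 64 * q + (i - 64 * q) by omega]⟩
    have := ih hq1 h.2
    rwa [show q + (r + 1) = q + 1 + r by omega]

theorem Cert.sound {T : Cert} (hcopy : T.copies.every copyCheck = true) {q : ℕ}
    (hq : T.CheckedBelow q) : ∀ i < 64 * q, T.NodeSound i := by
  intro i
  induction i using Nat.strong_induction_on with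
  | h i ih =>
    intro hi
    obtain ⟨p, hp⟩ := hq i hi
    exact T.nodeCheck_sound hcopy i p hp (fun j hj => ih j hj (hj.trans hi))

/-- An opening case: after the origin and one more cell, node `node` must apply. -/
structure Opening : Type where
  move : ℕ
  node : ℕ

def Cert.openingCheck (T : Cert) (top : ℕ) (o : Opening) : Bool :=
  Nat.blt o.node top &&
    (Nat.beq (T.freeMask o.node &&& 2 ^ o.move) 0 &&
      (Nat.beq (T.freeMask o.node &&& 2 ^ 86) 0 &&
        (!Nat.beq o.move 86 &&
          (Nat.beq ((2 ^ 86 ||| 2 ^ o.move) &&& T.needMask o.node) (T.needMask o.node) &&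
            Nat.blt (T.freeMask o.node ||| 2 ^ o.move) (2 ^ 169)))))

def syms : List (Bool × Bool × Bool) :=
  [(false, false, false), (false, false, true), (false, true, false), (false, true, true),
   (true, false, false), (true, false, true), (true, true, false), (true, true, true)]

/-- Cell number `i` escapes the zone of opening `o` in the frame given by `g`. -/
def Cert.escapes (T : Cert) (i : ℕ) (g : Bool × Bool × Bool) (o : Opening) : Bool :=
  decide (cellOf (idxOf (symInv g.1 g.2.1 g.2.2 (cellOf i))) = symInv g.1 g.2.1 g.2.2 (cellOf i)) &&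
    !Nat.testBit (T.freeMask o.node ||| 2 ^ o.move) (idxOf (symInv g.1 g.2.1 g.2.2 (cellOf i)))

def Cert.rootCheck (T : Cert) (top : ℕ) (o : Opening) (os : List Opening) : Bool :=
  (o :: os).all (T.openingCheck top) &&
    (List.range 169).all fun i =>
      Nat.beq i 86 || syms.any fun g => (o :: os).any (T.escapes i g)

theorem Cert.opening_force {T : Cert} (hcopy : T.copies.every copyCheck = true) {q : ℕ}
    (hq : T.CheckedBelow q) {o : Opening} (ho : T.openingCheck (64 * q) o = true) (b : Cell)
    (_hb0 : b ≠ (0, 0)) (hb : ¬ InMask (T.freeMask o.node ||| 2 ^ o.move) b) :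
    ∃ m, m ∉ ({(0, 0)} : Finset Cell) ∧ m ∉ ({b} : Finset Cell) ∧
      ForceN (64 * q) (insert m {(0, 0)}) {b} := by
  simp only [Cert.openingCheck, Bool.and_eq_true, Bool.not_eq_true'] at ho
  obtain ⟨hlt, hdm, hd0, hne, hneed, -⟩ := ho
  have hlt : o.node < 64 * q := by simpa [Nat.blt_eq] using hlt
  have hne' : o.move ≠ 86 := fun e => by simp [e] at hne
  have h86 : cellOf 86 = ((0, 0) : Cell) := by simp [cellOf]
  have hmbit : (T.freeMask o.node ||| 2 ^ o.move).testBit o.move = true := by
    simp [Nat.testBit_or]
  have hmb : cellOf o.move ≠ b := fun e => hb (e ▸ inMask_cellOf.mpr hmbit)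
  have hm0 : cellOf o.move ≠ (0, 0) := fun e => hne' (cellOf_injective (e.trans h86.symm))
  refine ⟨cellOf o.move, by simpa using hm0, by simpa using hmb, ?_⟩
  refine forceN_mono (Nat.succ_le_of_lt hlt) (T.sound hcopy hq _ hlt _ _ ?_ ?_)
  · rintro p ⟨j, hj, rfl⟩
    have := testBit_of_and_eq (Nat.eq_of_beq_eq_true hneed) hj
    rw [Nat.testBit_or, Bool.or_eq_true] at this
    simp only [Nat.testBit_two_pow, decide_eq_true_eq] at this
    rcases this with e | e
    · subst e; simp [h86]
    · subst e; simp
  · rintro p ⟨j, hj, rfl⟩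
    have h1 : cellOf j ≠ b := fun e => hb (e ▸ inMask_cellOf.mpr (by simp [Nat.testBit_or, hj]))
    refine ⟨?_, by simpa using h1⟩
    intro hmem
    rcases Finset.mem_insert.mp hmem with e | e
    · have e' := cellOf_injective e
      have : (T.freeMask o.node &&& 2 ^ o.move).testBit j = true := by
        subst e'; simp [Nat.testBit_and, hj]
      rw [Nat.eq_of_beq_eq_true hdm] at this
      simp at this
    · rw [Finset.mem_singleton, ← h86] at e
      have e' := cellOf_injective e
      have : (T.freeMask o.node &&& 2 ^ 86).testBit j = true := by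
        subst e'; rw [Nat.testBit_and, hj, Bool.true_and, Nat.testBit_two_pow_self]
      rw [Nat.eq_of_beq_eq_true hd0] at this
      simp at this

theorem Cert.winning {T : Cert} (hcopy : T.copies.every copyCheck = true) {q : ℕ}
    (hq : T.CheckedBelow q) {o : Opening} {os : List Opening}
    (hroot : T.rootCheck (64 * q) o os = true) : MakerHasWinningStrategy := by
  simp only [Cert.rootCheck, Bool.and_eq_true, List.all_eq_true, Bool.or_eq_true,
    List.any_eq_true] at hroot
  obtain ⟨hopen, hcover⟩ := hroot
  refine winning_of_forceN (k := 64 * q + 1) (Or.inr fun b hbM _ => ?_)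
  have hb0 : b ≠ (0, 0) := by simpa using hbM
  simp only [insert_empty_eq]
  by_cases hex : ∃ i < 169, cellOf i = b
  · obtain ⟨i, hi, rfl⟩ := hex
    rcases hcover i (List.mem_range.mpr hi) with e | ⟨g, -, p, hp, hesc⟩
    · exact absurd (by rw [Nat.eq_of_beq_eq_true e]; simp [cellOf]) hb0
    · obtain ⟨sw, a, c⟩ := g
      simp only [Cert.escapes, Bool.and_eq_true, decide_eq_true_eq, Bool.not_eq_true'] at hesc
      have hzero : symFun sw a c (0, 0) = (0, 0) := by cases sw <;> simp [symFun]
      have hnot : ¬ InMask (T.freeMask p.node ||| 2 ^ p.move) (symInv sw a c (cellOf i)) := by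
        rw [← hesc.1, inMask_cellOf, hesc.2]; simp
      have hne : symInv sw a c (cellOf i) ≠ (0, 0) := fun e =>
        hb0 (by rw [← symFun_symInv sw a c (cellOf i), e, hzero])
      obtain ⟨m, hm, hm', hf⟩ := Cert.opening_force hcopy hq (hopen p hp) _ hne hnot
      simp only [Finset.mem_singleton] at hm hm'
      refine ⟨symFun sw a c m, ?_, ?_, ?_⟩
      · rw [Finset.mem_singleton]
        intro e
        apply hm
        rw [← symInv_symFun sw a c m, e]
        conv_lhs => rw [← hzero]
        rw [symInv_symFun]
      · rw [Finset.mem_singleton]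
        intro e
        apply hm'
        rw [← symInv_symFun sw a c m, e]
      · have := forceN_symFun sw a c hf
        rwa [Finset.image_insert, Finset.image_singleton, Finset.image_singleton, hzero,
          symFun_symInv] at this
  · have ho := hopen o (List.mem_cons_self ..)
    refine Cert.opening_force hcopy hq ho b hb0 ?_
    rintro ⟨j, hj, rfl⟩
    simp only [Cert.openingCheck, Bool.and_eq_true] at ho
    have hlt : T.freeMask o.node ||| 2 ^ o.move < 2 ^ 169 := by
      simpa [Nat.blt_eq] using ho.2.2.2.2.2
    refine hex ⟨j, ?_, rfl⟩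
    by_contra hge
    push Not at hge
    have h2 := Nat.ge_two_pow_of_testBit hj
    have h3 : 2 ^ 169 ≤ 2 ^ j := Nat.pow_le_pow_right (by norm_num) hge
    omega

end Vale.Agent.P062.Snaky
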