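import Vale.Agent.P062.Snaky.Game

/-!
Bounded forcing positions, their monotonicity, and the strategy they give.
-/

namespace Vale.Agent.P062.Snaky

/-- Maker can force a copy within `k` more moves; Breaker is to move, `M` and `B` are claimed. -/
def ForceN : ℕ → Finset Cell → Finset Cell → Prop
  | 0, M, _ => ∃ s, IsCopy s ∧ s ⊆ M
  | k + 1, M, B => (∃ s, IsCopy s ∧ s ⊆ M) ∨
      ∀ b, b ∉ M → b ∉ B → ∃ m, m ∉ M ∧ m ∉ insert b B ∧ ForceN k (insert m M) (insert b B)

theorem forceN_succ : ∀ {k : ℕ} {M B : Finset Cell}, ForceN k M B → ForceN (k + 1) M B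
  | 0, _, _, h => Or.inl h
  | _ + 1, _, _, h => by
    rcases h with h | h
    · exact Or.inl h
    · refine Or.inr fun b hb hb' => ?_
      obtain ⟨m, hm, hm', hf⟩ := h b hb hb'
      exact ⟨m, hm, hm', forceN_succ hf⟩

theorem forceN_mono {k l : ℕ} (h : k ≤ l) {M B : Finset Cell} (hf : ForceN k M B) :
    ForceN l M B := by
  induction h with
  | refl => exact hf
  | step _ ih => exact forceN_succ ih

theorem exists_free (M B : Finset Cell) : ∃ m, m ∉ M ∧ m ∉ B := by
  obtain ⟨m, hm⟩ := Infinite.exists_notMem_finset (M ∪ B)
  simp only [Finset.mem_union, not_or] at hm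
  exact ⟨m, hm⟩

/-- A good answer for Maker within `k` moves. -/
def GoodAnswer (k : ℕ) (M B : Finset Cell) (m : Cell) : Prop :=
  m ∉ M ∧ m ∉ B ∧ ForceN k (insert m M) B

open Classical in
/-- Maker's answer: a quickest forcing move if there is one, otherwise any free cell. -/
noncomputable def answer (M B : Finset Cell) : Cell :=
  if h : ∃ k m, GoodAnswer k M B m then Classical.choose (Nat.find_spec h)
  else Classical.choose (exists_free M B)

theorem answer_free (M B : Finset Cell) : answer M B ∉ M ∧ answer M B ∉ B := by
  classical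
  unfold answer
  split_ifs with h
  · have := Classical.choose_spec (Nat.find_spec h)
    exact ⟨this.1, this.2.1⟩
  · exact Classical.choose_spec (exists_free M B)

theorem answer_good {k : ℕ} {M B : Finset Cell} {m : Cell} (hm : GoodAnswer k M B m) :
    ∃ l ≤ k, GoodAnswer l M B (answer M B) := by
  classical
  have h : ∃ k m, GoodAnswer k M B m := ⟨k, m, hm⟩
  refine ⟨Nat.find h, Nat.find_min' h ⟨m, hm⟩, ?_⟩
  unfold answer
  rw [dif_pos h]
  exact Classical.choose_spec (Nat.find_spec h)

/-- Maker's cells, Breaker's cells and Maker's last move. -/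
noncomputable def advance (s : (Finset Cell × Finset Cell) × Cell) (b : Cell) :
    (Finset Cell × Finset Cell) × Cell :=
  ((insert (answer s.1.1 (insert b s.1.2)) s.1.1, insert b s.1.2),
    answer s.1.1 (insert b s.1.2))

/-- The strategy which starts at the origin and then plays `answer`. -/
noncomputable def strategy (h : List Cell) : Cell :=
  (h.foldl advance ((({(0, 0)} : Finset Cell), ∅), (0, 0))).2

noncomputable def stateAt (β : ℕ → Cell) (n : ℕ) : (Finset Cell × Finset Cell) × Cell :=
  ((List.range n).map β).foldl advance ((({(0, 0)} : Finset Cell), ∅), (0, 0))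

theorem makerMove_strategy (β : ℕ → Cell) (n : ℕ) :
    makerMove strategy β n = (stateAt β n).2 := rfl

theorem stateAt_succ (β : ℕ → Cell) (n : ℕ) :
    stateAt β (n + 1) = advance (stateAt β n) (β n) := by
  simp [stateAt, List.range_succ]

theorem stateAt_cells (β : ℕ → Cell) (n : ℕ) :
    (stateAt β n).1.1 = (Finset.range (n + 1)).image (makerMove strategy β) ∧
      (stateAt β n).1.2 = (Finset.range n).image β := by
  induction n with
  | zero => simp [stateAt, makerMove, strategy]
  | succ n ih =>
    constructor
    · rw [Finset.range_add_one (n := n + 1), Finset.image_insert, makerMove_strategy,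
        stateAt_succ]
      simp only [advance]
      rw [ih.1]
    · rw [Finset.range_add_one (n := n), Finset.image_insert, stateAt_succ]
      simp only [advance]
      rw [ih.2]

theorem force_wins (β : ℕ → Cell) (hβ : ∀ n, BreakerLegalAt strategy β n) :
    ∀ k n, ForceN k (stateAt β n).1.1 (stateAt β n).1.2 →
      ∃ n, ∃ s : Finset Cell, IsCopy s ∧ ∀ p ∈ s, ∃ j ≤ n, makerMove strategy β j = p := by
  intro k
  induction k using Nat.strong_induction_on with
  | h k ih =>
    intro n hf
    have hwin : (∃ s, IsCopy s ∧ s ⊆ (stateAt β n).1.1) →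
        ∃ n, ∃ s : Finset Cell, IsCopy s ∧ ∀ p ∈ s, ∃ j ≤ n, makerMove strategy β j = p := by
      rintro ⟨s, hs, hsub⟩
      refine ⟨n, s, hs, fun p hp => ?_⟩
      have hpM := hsub hp
      rw [(stateAt_cells β n).1, Finset.mem_image] at hpM
      obtain ⟨j, hj, hjp⟩ := hpM
      exact ⟨j, Nat.lt_succ_iff.mp (Finset.mem_range.mp hj), hjp⟩
    match k, hf, ih with
    | 0, hf, _ => exact hwin hf
    | k + 1, hf, ih =>
      rcases hf with hf | hf
      · exact hwin hf
      · have hbM : β n ∉ (stateAt β n).1.1 := by
          rw [(stateAt_cells β n).1, Finset.mem_image]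
          rintro ⟨j, hj, hjp⟩
          exact (hβ n).1 j (Nat.lt_succ_iff.mp (Finset.mem_range.mp hj)) hjp.symm
        have hbB : β n ∉ (stateAt β n).1.2 := by
          rw [(stateAt_cells β n).2, Finset.mem_image]
          rintro ⟨j, hj, hjp⟩
          exact (hβ n).2 j (Finset.mem_range.mp hj) hjp.symm
        obtain ⟨m, hm, hm', hf'⟩ := hf _ hbM hbB
        obtain ⟨l, hl, hgood⟩ := answer_good (k := k) ⟨hm, hm', hf'⟩
        refine ih l (by omega) (n + 1) ?_
        rw [stateAt_succ]
        exact hgood.2.2

/-- A forcing position after the opening at the origin gives a winning strategy. -/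
theorem winning_of_forceN {k : ℕ} (h : ForceN k ({(0, 0)} : Finset Cell) ∅) :
    MakerHasWinningStrategy := by
  refine ⟨strategy, fun β => ⟨fun n _ => ?_, fun hβ => force_wins β hβ k 0 ?_⟩⟩
  · cases n with
    | zero => simp [MakerLegalAt]
    | succ n =>
      have hf := answer_free (stateAt β n).1.1 (insert (β n) (stateAt β n).1.2)
      have hmove : makerMove strategy β (n + 1) =
          answer (stateAt β n).1.1 (insert (β n) (stateAt β n).1.2) := by
        rw [makerMove_strategy, stateAt_succ]; rfl
      rw [← hmove, (stateAt_cells β n).1, (stateAt_cells β n).2, ← Finset.image_insert,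
        ← Finset.range_add_one] at hf
      constructor
      · intro j hj e
        exact hf.1 (Finset.mem_image.mpr ⟨j, Finset.mem_range.mpr hj, e.symm⟩)
      · intro j hj e
        exact hf.2 (Finset.mem_image.mpr ⟨j, Finset.mem_range.mpr hj, e.symm⟩)
  · simpa [stateAt] using h

end Vale.Agent.P062.Snaky
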