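import Mathlib.Data.Finset.Image
import Mathlib.Data.Fintype.EquivFin
import Mathlib.Data.Nat.Bitwise
import Mathlib.Algebra.Ring.Int.Defs
import Mathlib.Tactic.Ring
import Mathlib.Tactic.NormNum
import Mathlib.Tactic.Push

/-!
The weak achievement game for the hexomino Snaky on the square grid: Maker moves first,
the players alternate, and Breaker only tries to prevent Maker's copy.
-/

namespace Vale.Agent.P062.Snaky

abbrev Cell : Type := ℤ × ℤ

/-- The hexomino Snaky. -/
def snaky : Finset Cell := {(0, 0), (1, 0), (2, 0), (3, 0), (3, 1), (4, 1)}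

/-- An allowed copy: the image of Snaky under a signed permutation matrix and a translation. -/
def IsCopy (s : Finset Cell) : Prop :=
  ∃ t : Cell, ∃ a b : ℤ, (a = 1 ∨ a = -1) ∧ (b = 1 ∨ b = -1) ∧
    (s = snaky.image (fun p => (t.1 + a * p.1, t.2 + b * p.2)) ∨
      s = snaky.image (fun p => (t.1 + a * p.2, t.2 + b * p.1)))

/-- Maker's move number `n` (counted from 0): the strategy sees Breaker's first `n` cells. -/
def makerMove (σ : List Cell → Cell) (β : ℕ → Cell) (n : ℕ) : Cell :=
  σ ((List.range n).map β)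

/-- Breaker's move number `n` (made just after Maker's move `n`) is an unclaimed cell. -/
def BreakerLegalAt (σ : List Cell → Cell) (β : ℕ → Cell) (n : ℕ) : Prop :=
  (∀ j ≤ n, β n ≠ makerMove σ β j) ∧ ∀ j < n, β n ≠ β j

/-- Maker's move number `n` is an unclaimed cell. -/
def MakerLegalAt (σ : List Cell → Cell) (β : ℕ → Cell) (n : ℕ) : Prop :=
  (∀ j < n, makerMove σ β n ≠ makerMove σ β j) ∧ ∀ j < n, makerMove σ β n ≠ β j

/-- Maker has a strategy that only makes legal moves and, against every legal play of Breaker,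
owns all cells of some allowed copy after finitely many turns. -/
def MakerHasWinningStrategy : Prop :=
  ∃ σ : List Cell → Cell, ∀ β : ℕ → Cell,
    (∀ n, (∀ j < n, BreakerLegalAt σ β j) → MakerLegalAt σ β n) ∧
    ((∀ n, BreakerLegalAt σ β n) →
      ∃ n, ∃ s : Finset Cell, IsCopy s ∧ ∀ p ∈ s, ∃ j ≤ n, makerMove σ β j = p)

end Vale.Agent.P062.Snaky
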