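import Vale.Agent.P062.Snaky.Force

/-!
The eight symmetries of the grid fixing the origin preserve forcing positions.
-/

namespace Vale.Agent.P062.Snaky

/-- `(sw, a, b)` encodes a signed permutation; `a` and `b` say whether signs are flipped. -/
def sgn (a : Bool) : ℤ := if a then -1 else 1

theorem sgn_cases (a : Bool) : sgn a = 1 ∨ sgn a = -1 := by cases a <;> simp [sgn]

theorem sgn_mul_self (a : Bool) : sgn a * sgn a = 1 := by cases a <;> simp [sgn]

theorem sgn_sgn (a : Bool) (x : ℤ) : sgn a * (sgn a * x) = x := by
  rw [← mul_assoc, sgn_mul_self, one_mul]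

def symFun (sw a b : Bool) (p : Cell) : Cell :=
  if sw then (sgn a * p.2, sgn b * p.1) else (sgn a * p.1, sgn b * p.2)

def symInv (sw a b : Bool) (q : Cell) : Cell :=
  if sw then (sgn b * q.2, sgn a * q.1) else (sgn a * q.1, sgn b * q.2)

theorem symInv_symFun (sw a b : Bool) (p : Cell) : symInv sw a b (symFun sw a b p) = p := by
  cases sw <;> simp [symInv, symFun, sgn_sgn]

theorem symFun_symInv (sw a b : Bool) (p : Cell) : symFun sw a b (symInv sw a b p) = p := by
  cases sw <;> simp [symInv, symFun, sgn_sgn]

theorem isCopy_symFun (sw a b : Bool) {s : Finset Cell} (h : IsCopy s) :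
    IsCopy (s.image (symFun sw a b)) := by
  obtain ⟨t, c, d, hc, hd, h⟩ := h
  have hpm : ∀ (e : Bool) (x : ℤ), (x = 1 ∨ x = -1) → (sgn e * x = 1 ∨ sgn e * x = -1) := by
    intro e x hx
    cases e <;> rcases hx with hx | hx <;> simp [sgn, hx]
  cases sw
  · refine ⟨symFun false a b t, sgn a * c, sgn b * d, hpm a c hc, hpm b d hd, ?_⟩
    rcases h with rfl | rfl
    · left; rw [Finset.image_image]; apply Finset.image_congr; intro p _
      simp only [Function.comp, symFun, Bool.false_eq_true, if_false]; ext <;> ring
    · right; rw [Finset.image_image]; apply Finset.image_congr; intro p _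
      simp only [Function.comp, symFun, Bool.false_eq_true, if_false]; ext <;> ring
  · refine ⟨symFun true a b t, sgn a * d, sgn b * c, hpm a d hd, hpm b c hc, ?_⟩
    rcases h with rfl | rfl
    · right; rw [Finset.image_image]; apply Finset.image_congr; intro p _
      simp only [Function.comp, symFun, if_true]; ext <;> ring
    · left; rw [Finset.image_image]; apply Finset.image_congr; intro p _
      simp only [Function.comp, symFun, if_true]; ext <;> ring

theorem forceN_symFun (sw a b : Bool) : ∀ {k : ℕ} {M B : Finset Cell}, ForceN k M B →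
    ForceN k (M.image (symFun sw a b)) (B.image (symFun sw a b)) := by
  intro k
  induction k with
  | zero =>
    intro M B h
    obtain ⟨s, hs, hsub⟩ := h
    exact ⟨_, isCopy_symFun sw a b hs, Finset.image_subset_image hsub⟩
  | succ k ih =>
    intro M B h
    rcases h with ⟨s, hs, hsub⟩ | h
    · exact Or.inl ⟨_, isCopy_symFun sw a b hs, Finset.image_subset_image hsub⟩
    · refine Or.inr fun c hc hc' => ?_
      have key : ∀ (S : Finset Cell) (p : Cell),
          p ∈ S.image (symFun sw a b) ↔ symInv sw a b p ∈ S := by
        intro S p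
        rw [Finset.mem_image]
        constructor
        · rintro ⟨q, hq, rfl⟩; rwa [symInv_symFun]
        · intro hp; exact ⟨_, hp, symFun_symInv sw a b p⟩
      rw [key] at hc hc'
      obtain ⟨m, hm, hm', hf⟩ := h _ hc hc'
      refine ⟨symFun sw a b m, ?_, ?_, ?_⟩
      · rwa [key, symInv_symFun]
      · intro hmem
        rcases Finset.mem_insert.mp hmem with e | e
        · apply hm'; rw [← e, symInv_symFun]; exact Finset.mem_insert_self _ _
        · rw [key, symInv_symFun] at e; exact hm' (Finset.mem_insert_of_mem e)
      · have := ih hf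
        rwa [Finset.image_insert, Finset.image_insert, symFun_symInv] at this

end Vale.Agent.P062.Snaky
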